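import Vale.Agent.P230.Bdl.B3
import Vale.Agent.P230.R2.Final

namespace Vale.Agent.Results.P230.BothOrders

open MeasureTheory

section general

variable {V : Type} [NormedAddCommGroup V]

/-- Locally finite sets: every ball contains only finitely many points of `X`. -/
def LocFin (X : Set V) : Prop := ∀ R : ℝ, (X ∩ Metric.closedBall 0 R).Finite

/-- The translates `K + x`, `x ∈ X`, cover the whole space: `K + X = V`. -/
def Covers (K X : Set V) : Prop := ∀ z : V, ∃ k ∈ K, ∃ x ∈ X, k + x = z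

variable [NormedSpace ℝ V]

/-- A convex body: a compact convex set with nonempty interior. -/
def IsBody (K : Set V) : Prop := Convex ℝ K ∧ IsCompact K ∧ (interior K).Nonempty

/-- The lattice covering density `θ_L(K)`: the infimum of `vol(K) / det Λ` over all full-rank
lattices `Λ` with `K + Λ = V`. -/
noncomputable def thetaL [MeasureSpace V] (K : Set V) : ENNReal :=
  ⨅ (Λ : Submodule ℤ V) (_ : DiscreteTopology Λ) (_ : IsZLattice ℝ Λ) (_ : Covers K Λ),
    volume K / ENNReal.ofReal (ZLattice.covolume Λ volume)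

end general

/-- The upper density `limsup_{R → ∞} #(X ∩ [-R, R]^n) / (2R)^n`. -/
noncomputable def upDens {n : ℕ} (X : Set (EuclideanSpace ℝ (Fin n))) : ENNReal :=
  Filter.limsup (fun R : ℝ => ({x | x ∈ X ∧ ∀ i, |x i| ≤ R}.encard : ENNReal) /
    ENNReal.ofReal ((2 * R) ^ n)) Filter.atTop

/-- The translative covering density `θ_T(K)`: the infimum of `vol(K) * upDens X` over all locally
finite `X` with `K + X = ℝ^n`. -/
noncomputable def thetaT {n : ℕ} (K : Set (EuclideanSpace ℝ (Fin n))) : ENNReal :=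
  ⨅ (X : Set (EuclideanSpace ℝ (Fin n))) (_ : LocFin X) (_ : Covers K X), volume K * upDens X

/-- `Θ_T(n)`: the supremum of `θ_T(K)` over all convex bodies `K` in `ℝ^n`. -/
noncomputable def ThetaT (n : ℕ) : ENNReal :=
  ⨆ (K : Set (EuclideanSpace ℝ (Fin n))) (_ : IsBody K), thetaT K

/-- `Θ_L(n)`: the supremum of `θ_L(K)` over all convex bodies `K` in `ℝ^n`. -/
noncomputable def ThetaL (n : ℕ) : ENNReal :=
  ⨆ (K : Set (EuclideanSpace ℝ (Fin n))) (_ : IsBody K), thetaL K

/-- Both worst-case covering densities have order of growth `n log n`: there are absolute constants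
`c, C > 0` with `c n log n ≤ Θ_T(n) ≤ C n log n` and `c n log n ≤ Θ_L(n) ≤ C n log n` for all
`n ≥ 2`. In particular there is no absolute constant `C` with `θ_T(K) ≤ C n` for all bodies. -/
theorem result :
    (∃ c C : ℝ, 0 < c ∧ 0 < C ∧ ∀ n : ℕ, 2 ≤ n →
      (ENNReal.ofReal (c * n * Real.log n) ≤ ThetaT n ∧
        ThetaT n ≤ ENNReal.ofReal (C * n * Real.log n)) ∧
      (ENNReal.ofReal (c * n * Real.log n) ≤ ThetaL n ∧
        ThetaL n ≤ ENNReal.ofReal (C * n * Real.log n))) ∧
    ¬ ∃ C : ℝ, ∀ n : ℕ, 1 ≤ n → ∀ K : Set (EuclideanSpace ℝ (Fin n)), IsBody K →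
      thetaT K ≤ ENNReal.ofReal (C * n) := by
  have hcov : ∀ (n : ℕ) (K X : Set (EuclideanSpace ℝ (Fin n))),
      Covers K X ↔ @HAdd.hAdd _ _ _ (@instHAdd _ Set.add) K X = Set.univ := by
    intro n K X
    rw [Set.eq_univ_iff_forall]
    exact forall_congr' fun z => Set.mem_add.symm
  have ht : ∀ (n : ℕ) (K : Set (EuclideanSpace ℝ (Fin n))),
      thetaT K = Vale.Agent.P230.LB.thetaT K := by
    intro n K
    unfold thetaT Vale.Agent.P230.LB.thetaT
    simp only [hcov]
    rfl
  have hl : ∀ (n : ℕ) (K : Set (EuclideanSpace ℝ (Fin n))),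
      thetaL K = Vale.Agent.P230.thetaL K := by
    intro n K
    unfold thetaL Vale.Agent.P230.thetaL
    simp only [hcov]
  have hT : ∀ n : ℕ, ThetaT n = Vale.Agent.P230.LB.ThetaT n := by
    intro n
    unfold ThetaT Vale.Agent.P230.LB.ThetaT IsBody
    simp only [iSup_and, ht]
  have hL : ∀ n : ℕ, ThetaL n = Vale.Agent.P230.ThetaL n := by
    intro n
    unfold ThetaL Vale.Agent.P230.ThetaL
    apply le_antisymm
    · refine iSup_le fun K => iSup_le fun hK => ?_
      exact le_iSup_of_le K (le_iSup_of_le hK.2.1 (le_iSup_of_le hK.1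
        (le_iSup_of_le hK.2.2 (hl n K).le)))
    · refine iSup_le fun K => iSup_le fun h1 => iSup_le fun h2 => iSup_le fun h3 => ?_
      exact le_iSup_of_le K (le_iSup_of_le ⟨h2, h1, h3⟩ (hl n K).ge)
  obtain ⟨c, C, hc, hC, h⟩ := Vale.Agent.P230.LB.orders
  obtain ⟨C', hC', h'⟩ := Vale.Agent.P230.R2.ThetaL_le_nlogn
  refine ⟨⟨c, max C C', hc, lt_max_of_lt_left hC, fun n hn => ?_⟩, ?_⟩
  · have hlog : 0 ≤ Real.log n := Real.log_natCast_nonneg n
    have hn0 : (0 : ℝ) ≤ n := Nat.cast_nonneg n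
    rw [hT, hL]
    refine ⟨⟨(h n hn).1, (h n hn).2.1.trans (ENNReal.ofReal_le_ofReal ?_)⟩, (h n hn).2.2,
      (h' n hn).trans (ENNReal.ofReal_le_ofReal ?_)⟩
    · exact mul_le_mul_of_nonneg_right (mul_le_mul_of_nonneg_right (le_max_left _ _) hn0) hlog
    · exact mul_le_mul_of_nonneg_right (mul_le_mul_of_nonneg_right (le_max_right _ _) hn0) hlog
  · rintro ⟨D, hD⟩
    refine Vale.Agent.P230.LB.no_linear ⟨D, fun n hn K h1 h2 h3 => ?_⟩
    rw [← ht]
    exact hD n hn K ⟨h1, h2, h3⟩

end Vale.Agent.Results.P230.BothOrders
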